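import Vale.Agent.P057XL.Base

/-!
Insertion of an independent centred tower.
-/

set_option linter.all false

open Matrix Finset MvPolynomial
open Vale.Agent.P267.H775 Vale.Agent.P057G Vale.Agent.P057PC Vale.Agent.P057TP Vale.Agent.P057AD
open Vale.Agent.P057XL

namespace Vale.Agent.P057IN

noncomputable section

variable {D W S : Type} {s : ℕ}

/-- the disjoint union of two towers -/
abbrev un (T T0 : Tow) : Tow where
  ι := T.ι ⊕ T0.ι
  lv := Sum.elim T.lv T0.lv
  q := Sum.elim (fun a => rename Sum.inl (T.q a)) fun b => rename Sum.inr (T0.q b)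
  G := fromBlocks T.G 0 0 T0.G
  el := Sum.elim T.el 0

/-- the system with an independent centred system on the second tower -/
def uns {T : Tow} (Z : Sys T W S) (T0 : Tow) : Sys (un T T0) W S where
  fam := ⟨fun o => Sum.elim (fun a => rename Sum.inl (Z.fam.fn o a))
    fun b => rename Sum.inr (MvPolynomial.map C (T0.q b))⟩
  off := Z.off

variable {T T0 : Tow} {Z : Sys T W S}

theorem ok0_un (hT : T.Ok0 s) (h0 : T0.Ok0 s) : (un T T0).Ok0 s := by
  classical
  refine ⟨?_, ?_, ?_, ?_, posDef_blocks hT.pd h0.pd, ?_, ?_⟩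
  · rintro (a | b)
    exacts [hT.pos a, h0.pos b]
  · rintro (a | b)
    exacts [hT.le a, h0.le b]
  · rintro (a | b)
    exacts [wh_rename (hT.hom a) fun _ => rfl, wh_rename (h0.hom b) fun _ => rfl]
  · rintro (a | b) j hj <;> obtain ⟨i, hi, rfl⟩ := mem_image.1 (vars_rename _ _ hj)
    exacts [hT.low a i hi, h0.low b i hi]
  · rintro (a | a) (b | b) e
    exacts [hT.blk a b e, rfl, rfl, h0.blk a b e]
  · rintro (a | b) e
    exacts [hT.el1 a e, rfl]

theorem okc (h0 : T0.Ok0 s) (W S : Type) : (T0.cen W S).Ok :=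
  ⟨⟨fun _ a => JH.of_hom (h0.hom a), fun _ _ => rfl⟩, fun a => by
    rw [Fam.top, Tow.cen, MvPolynomial.map_map, constantCoeff_comp_C, MvPolynomial.map_id]⟩

theorem ok_uns (h0 : T0.Ok0 s) (hZ : Z.Ok) : (uns Z T0).Ok := by
  have h1 := okc h0 W S
  refine ⟨⟨?_, ?_⟩, ?_⟩
  · rintro o (a | b)
    exacts [JH.rename (hZ.fam.hom o a) fun _ => rfl, JH.rename (h1.fam.hom o b) fun _ => rfl]
  · rintro t (a | b)
    · simp only [uns, Sum.elim_inl, map_rename, hZ.fam.pure]
    · rfl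
  · rintro (a | b)
    · exact (map_rename _ _ _).trans (congrArg _ (hZ.top a))
    · exact (map_rename _ _ _).trans (congrArg _ (h1.top b))

theorem dm_un (e : ℕ) : (un T T0).dm e = T0.dm e + T.dm e := by
  simp only [Tow.dm, card_filter, Fintype.sum_sum_type, Sum.elim_inl, Sum.elim_inr, Nat.cast_add]
  exact add_comm _ _

theorem yy_un (hT : T.G.PosDef) (h0 : T0.G.PosDef) (N : ℝ) (e : ℕ) :
    (un T T0).yy N e = T0.yy N e + Real.log (bk T.G fun a => T.lv a = e).det / 2 := by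
  have h : (bk (un T T0).G fun a => (un T T0).lv a = e).submatrix Equiv.subtypeSum.symm
      Equiv.subtypeSum.symm =
      fromBlocks (bk T.G fun a => T.lv a = e) 0 0 (bk T0.G fun a => T0.lv a = e) := by
    ext (i | i) (j | j) <;> rfl
  have h2 := (congrArg det h).trans (det_fromBlocks_zero₂₁ _ _ _)
  rw [det_submatrix_equiv_self] at h2
  have h1 : (bk (un T T0).G fun a => (un T T0).lv a = e).det =
      (bk T.G fun x => T.lv x = e).det * (bk T0.G fun x => T0.lv x = e).det := h2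
  unfold Tow.yy
  rw [h1, Real.log_mul (posDef_bk hT _).det_pos.ne' (posDef_bk h0 _).det_pos.ne']
  ring

variable [Fintype W] [DecidableEq W] [Fintype S] {cl : W → D} {m : ℕ}

/-- a label of the first tower -/
def ul (T0 : Tow) (l : Lb T cl S m) : Lb (un T T0) cl S m :=
  l.ren (T' := un T T0) Sum.inl fun _ => rfl

/-- a label of the second tower -/
def ur (T : Tow) (l : Lb T0 cl S m) : Lb (un T T0) cl S m :=
  l.ren (T' := un T T0) Sum.inr fun _ => rfl

/-- labels of the union -/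
def eU (T T0 : Tow) : Lb T cl S m ⊕ Lb T0 cl S m ≃ Lb (un T T0) cl S m :=
  Equiv.ofBijective (Sum.elim (ul T0) (ur T)) ⟨(ren_inj _ Sum.inl_injective).sumElim
    (ren_inj _ Sum.inr_injective) fun a b e => Sum.inl_ne_inr (congrArg Lb.cd e), fun l => by
      rcases h : l.cd with a | k
      · obtain ⟨u, hu⟩ := mem_ren (T' := un T T0) (e := Sum.inl) (fun _ => rfl) h
        exact ⟨Sum.inl u, hu⟩
      · obtain ⟨u, hu⟩ := mem_ren (T' := un T T0) (e := Sum.inr) (fun _ => rfl) h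
        exact ⟨Sum.inr u, hu⟩⟩

theorem pt_ul {R : Type} [AddCommMonoid R] (x : Lb (un T T0) cl S m → R) (o : Option S)
    (B : Finset W) (a : T.ι) : pt (x ∘ ul T0) o B a = pt x o B (Sum.inl a) :=
  pt_ren (T' := un T T0) (e := Sum.inl) (fun _ => rfl) Sum.inl_injective x o B a

theorem pt_ur {R : Type} [AddCommMonoid R] (x : Lb (un T T0) cl S m → R) (o : Option S)
    (B : Finset W) (b : T0.ι) : pt (x ∘ ur T) o B b = pt x o B (Sum.inr b) :=
  pt_ren (T' := un T T0) (e := Sum.inr) (fun _ => rfl) Sum.inr_injective x o B b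

theorem sub_ul (z : Lb (un T T0) cl S m → ℤ) : (Fam.ren W S Sum.inl).sub cl m z = z ∘ ul T0 :=
  funext fun l => sub_ren (T' := un T T0) Sum.inl (fun _ => rfl) z l

theorem at_inl (o : Option S) (A : Finset W) (a : T.ι) (y : T.ι ⊕ T0.ι → ℝ) :
    eval y ((uns Z T0).fam.at' o A (Sum.inl a)) = eval (y ∘ Sum.inl) (Z.fam.at' o A a) := by
  simp only [Fam.at', uns, Sum.elim_inl, map_rename, eval_rename]

theorem at_inr (o : Option S) (A : Finset W) (b : T0.ι) (y : T.ι ⊕ T0.ι → ℝ) :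
    eval y ((uns Z T0).fam.at' o A (Sum.inr b)) =
      eval (y ∘ Sum.inr) ((T0.cen W S).fam.at' o A b) := by
  simp only [Fam.at', uns, Sum.elim_inr, map_rename, eval_rename, Tow.cen]

theorem pr_ul (x : Lb (un T T0) cl S m → ℝ) (l : Lb T cl S m) :
    (uns Z T0).pr cl m x (ul T0 l) = Z.pr cl m (x ∘ ul T0) l :=
  sum_congr rfl fun B _ => congrArg _ ((at_inl _ _ _ _).trans (by
    rw [funext (pt_ul x l.bs B)]; rfl))

theorem pr_ur (x : Lb (un T T0) cl S m → ℝ) (l : Lb T0 cl S m) :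
    (uns Z T0).pr cl m x (ur T l) = (T0.cen W S).pr cl m (x ∘ ur T) l :=
  sum_congr rfl fun B _ => congrArg _ ((at_inr _ _ _ _).trans (by
    rw [funext (pt_ur x l.bs B)]; rfl))

theorem ps_ul (z : Lb (un T T0) cl S m → ℤ) :
    (uns Z T0).ps cl m z ∘ ul T0 = Z.ps cl m (z ∘ ul T0) :=
  funext fun l => congrArg (_ - ·) (pr_ul _ l)

theorem ps_ur (z : Lb (un T T0) cl S m → ℤ) :
    (uns Z T0).ps cl m z ∘ ur T = (T0.cen W S).ps cl m (z ∘ ur T) :=
  funext fun l => congrArg (_ - ·) (pr_ur _ l)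

theorem gam_un : (Gam (un T T0) cl S m).submatrix (eU T T0) (eU T T0) =
    fromBlocks (Gam T cl S m) 0 0 (Gam T0 cl S m) := by
  ext (l | l) (l' | l')
  · rfl
  · exact ite_self _
  · exact ite_self _
  · rfl

theorem qq_un (v : Lb (un T T0) cl S m → ℝ) : qq (Gam (un T T0) cl S m) v =
    qq (Gam T cl S m) (v ∘ ul T0) + qq (Gam T0 cl S m) (v ∘ ur T) := by
  rw [← qq_submatrix _ (eU T T0), gam_un, qq_blocks]
  rfl

theorem w_uns (hG : T.G.PosDef) (z : Lb (un T T0) cl S m → ℤ) : (uns Z T0).w cl m z =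
    Z.w cl m (z ∘ ul T0) * (T0.cen W S).w cl m (z ∘ ur T) := by
  rw [Sys.w, ← ng_submatrix _ (eU T T0), gam_un, ng_blocks (P057GH.pd_Gam hG cl S m), Sys.w, Sys.w,
    ← ps_ul, ← ps_ur]
  rfl

/-- the coordinates of the upper levels -/
def eH (T : Tow) (hm : ∀ b, T0.lv b < m) : {a // m ≤ T.lv a} ≃ {a // m ≤ (un T T0).lv a} :=
  Equiv.ofBijective (fun a => ⟨Sum.inl a.1, a.2⟩)
    ⟨fun a b e => Subtype.ext (Sum.inl_injective (congrArg Subtype.val e)), by
      rintro ⟨a | b, h⟩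
      exacts [⟨⟨a, h⟩, rfl⟩, absurd (hm b) (not_lt.2 h)]⟩

theorem F_uns (hm : ∀ b, T0.lv b < m) (f : ℤ → ℝ) (z : Lb (un T T0) cl S m → ℤ) (c : Finset W)
    (t : S) : (uns Z T0).F cl m f z c t = Z.F cl m f ((Fam.ren W S Sum.inl).sub cl m z) c t := by
  have e : ∀ y, Sys.full cl m (z ∘ ul T0) c t (y ∘ eH T hm) = Sys.full cl m z c t y ∘ Sum.inl :=
    fun y => funext fun a => by
      unfold Sys.full
      rw [pt_ul]
      rfl
  rw [sub_ul, P057GH.F_eq, P057GH.F_eq]
  refine (er_equiv (eH T hm) (fun _ _ => rfl) (fun y a => ?_) fun y => ?_).symm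
  · refine Eq.trans ?_ (at_inl _ _ a.1 _).symm
    rw [P057GH.up, e]
    rfl
  · rw [e]
    simp [dotProduct, uns]

theorem ps_cen_zero (h0 : T0.Ok0 s) : (T0.cen W S).ps cl m 0 = 0 := by
  funext l
  have h1 : pt (toR (0 : Lb T0 cl S m → ℤ)) = fun _ _ _ => 0 := by
    funext o B a; simp [pt]
  have h2 : ∀ B : Finset W, eval (fun _ => 0) ((T0.cen W S).fam.at' l.bs B l.cd) = 0 := fun B => by
    rw [eval_zero', Fam.at', Tow.cen, constantCoeff_map, constantCoeff_map, constantCoeff_eq,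
      (h0.hom _).coeff_eq_zero _ (by simpa using (h0.pos _).ne), map_zero, map_zero]
  simp only [Sys.ps, Sys.pr, Fam.alt, h1, h2, Pi.sub_apply]
  simp

theorem st_uns (hT : T.Ok0 s) (h0 : T0.Ok0 s) (hZ : Z.Ok) {H : (Lb T cl S m → ℤ) → ℝ} {B κ σ : ℝ}
    (hσ : 0 ≤ σ) (hS : Z.St cl m H B κ σ) :
    (uns Z T0).St cl m (fun z => H ((Fam.ren W S Sum.inl).sub cl m z)) B κ
      (σ * ng (Gam T0 cl S m) 0) := by
  have hg : ∀ y, |H y - κ| ≤ B + |κ| := fun y => (abs_sub _ _).trans (add_le_add_left (hS.1 y) _)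
  refine ⟨fun z => hS.1 _, ?_⟩
  simp only [sub_ul]
  have hs := summable_mul_real (summable_w0 (cl := cl) (m := m) (ok0_un hT h0) (ok_uns h0 hZ))
    (P057GH.w_nonneg _) fun z => hg (z ∘ ul T0)
  let e := Equiv.arrowCongr (eU (cl := cl) (S := S) (m := m) T T0) (Equiv.refl ℤ)
  have h5 : ∀ y n, e (Sum.elim y n) ∘ ul T0 = y := fun y n =>
    funext fun l => congrArg (Sum.elim y n) ((eU T T0).symm_apply_apply (Sum.inl l))
  have h6 : ∀ y n, e (Sum.elim y n) ∘ ur T = n := fun y n =>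
    funext fun l => congrArg (Sum.elim y n) ((eU T T0).symm_apply_apply (Sum.inr l))
  have h7 := (summable_w0 (cl := cl) (m := m) h0 (okc h0 W S)).le_tsum 0
    fun _ _ => P057GH.w_nonneg _ _
  rw [Sys.w, ps_cen_zero h0] at h7
  refine le_of_le_of_eq ?_ ((e.tsum_eq _).symm.trans (tsum_sum_elim (e.summable_iff.2 hs))).symm
  simp only [Function.comp_apply, w_uns hT.pd, h5, h6, mul_right_comm _ _ (H _ - κ), tsum_mul_left,
    tsum_mul_right]
  exact mul_le_mul hS.2 h7 (ng_nonneg _ _) (hσ.trans hS.2)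

end

end Vale.Agent.P057IN
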